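import Vale.Agent.P011Z.MainF
import Vale.Agent.P011Z.FinDefs

/-!
Tools for the models: tensors from multilinear maps, and the passage from endomorphisms to
matrices.
-/

open Matrix Module

namespace Vale.Agent.P011Z.Mod

open Vale.Agent.P011.H900

theorem mem_grp {V : Type} {P : (V → V) → Prop} (h1 : P id) (h2 : ∀ f g, P f → P g → P (f ∘ g))
    (h3 : ∀ f : Equiv.Perm V, P f → P f.symm) (f : grp P) : P f.1 := by
  exact Subgroup.closure_induction (p := fun (x : Equiv.Perm V) _ => P x) (fun _ hx => hx) h1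
    (fun x y _ _ hx hy => h2 x y hx hy) (fun x _ hx => h3 x hx) f.2

theorem aut_surj {F : Type} [Field F] {n : ℕ} {r : F → F} (h : Aut (n + 1) r) :
    Function.Surjective r := fun x =>
  ⟨r^[n] x, by rw [← Function.iterate_succ_apply' r, h.2.1]; rfl⟩

theorem exists_hom {F : Type} [Field F] {n : ℕ} {r : F → F} (h : Aut (n + 1) r) :
    ∃ R : F →+* F, ⇑R = r := by
  obtain ⟨y, hy⟩ := aut_surj h 1
  have h1 : r 1 = 1 := by
    have := (h.1 y 1).2
    rw [mul_one, hy, one_mul] at this
    exact this.symm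
  have h0 : r 0 = 0 := by
    have := (h.1 0 0).1
    rw [add_zero] at this
    exact left_eq_add.1 this
  exact ⟨⟨⟨⟨r, h1⟩, fun x y => (h.1 x y).2⟩, h0, fun x y => (h.1 x y).1⟩, rfl⟩

section ml

variable {F V : Type} [Field F] [AddCommGroup V] [Module F V]

/-- A bilinear form as a multilinear map. -/
def ml2 (B : V →ₗ[F] V →ₗ[F] F) : MultilinearMap F (fun _ : Fin 2 => V) F :=
  MultilinearMap.mk' (fun x => B (x 0) (x 1))
    (fun m i x y => by fin_cases i <;> simp [Function.update])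
    (fun m i c x => by fin_cases i <;> simp [Function.update])

@[simp] theorem ml2_apply (B : V →ₗ[F] V →ₗ[F] F) (x : Fin 2 → V) : ml2 B x = B (x 0) (x 1) := rfl

/-- A trilinear form as a multilinear map. -/
def ml3 (B : V →ₗ[F] V →ₗ[F] V →ₗ[F] F) : MultilinearMap F (fun _ : Fin 3 => V) F :=
  MultilinearMap.mk' (fun x => B (x 0) (x 1) (x 2))
    (fun m i x y => by fin_cases i <;> simp [Function.update])
    (fun m i c x => by fin_cases i <;> simp [Function.update])

@[simp] theorem ml3_apply (B : V →ₗ[F] V →ₗ[F] V →ₗ[F] F) (x : Fin 3 → V) :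
    ml3 B x = B (x 0) (x 1) (x 2) := rfl

variable {m : Type} [Fintype m] [DecidableEq m]

/-- The vector with the given coordinates. -/
noncomputable abbrev vc (b : Basis m F V) (x : m → F) : V := b.equivFun.symm x

/-- The matrix of an endomorphism. -/
noncomputable abbrev tm (b : Basis m F V) : End F V ≃ₐ[F] Matrix m m F :=
  LinearMap.toMatrixAlgEquiv b

theorem vc_mulVec (b : Basis m F V) (L : End F V) (x : m → F) :
    vc b (tm b L *ᵥ x) = L (vc b x) := by
  obtain ⟨v, rfl⟩ := b.equivFun.surjective x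
  have h := LinearMap.toMatrix_mulVec_repr b b L v
  rw [vc, vc, LinearEquiv.symm_apply_apply, LinearEquiv.symm_apply_eq]
  exact h

omit [DecidableEq m] in
theorem vc_surj (b : Basis m F V) {n : ℕ} (v : Fin n → V) :
    ∃ x : Fin n → m → F, (fun r => vc b (x r)) = v :=
  ⟨fun r => b.equivFun (v r), funext fun _ => LinearEquiv.symm_apply_apply _ _⟩

/-- The tensor with the coefficients of a multilinear map. -/
noncomputable abbrev ofML (b : Basis m F V) {n : ℕ} (σ : Fin n → F →+* F)
    (Ψ : MultilinearMap F (fun _ : Fin n => V) F) : TnF F m :=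
  ⟨n, σ, fun j => Ψ fun r => b (j r)⟩

omit [DecidableEq m] in
theorem evE_ofML (b : Basis m F V) {n : ℕ} (σ : Fin n → F →+* F)
    (Ψ : MultilinearMap F (fun _ : Fin n => V) F) {Ω V' : Type} [Field Ω] [AddCommGroup V']
    [Module Ω V'] (τ : F →+* Ω) (b' : Basis m Ω V') (Ψ' : MultilinearMap Ω (fun _ : Fin n => V') Ω)
    (h : ∀ j : Fin n → m, τ (Ψ fun r => b (j r)) = Ψ' fun r => b' (j r)) (x : Fin n → m → Ω) :
    (ofML b σ Ψ).evE τ x = Ψ' fun r => vc b' (x r) := by
  simp only [vc, Basis.equivFun_symm_apply]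
  rw [Ψ'.map_sum]
  refine Finset.sum_congr rfl fun j _ => ?_
  rw [Ψ'.map_smul_univ, ← h, smul_eq_mul, mul_comm]

omit [DecidableEq m] in
theorem ev_ofML (b : Basis m F V) {n : ℕ} (σ : Fin n → F →+* F)
    (Ψ : MultilinearMap F (fun _ : Fin n => V) F) (A : Fin n → V → V)
    (hA : ∀ r x, A r (vc b x) = vc b fun i => σ r (x i)) (x : Fin n → m → F) :
    (ofML b σ Ψ).ev x = Ψ fun r => A r (vc b (x r)) := by
  simp only [hA]
  exact evE_ofML b σ Ψ (RingHom.id F) b Ψ (fun _ => rfl) fun r i => σ r (x r i)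

theorem pres_ofML (b : Basis m F V) {n : ℕ} (σ : Fin n → F →+* F)
    (Ψ : MultilinearMap F (fun _ : Fin n => V) F) (A : Fin n → V → V)
    (hA : ∀ r x, A r (vc b x) = vc b fun i => σ r (x i)) (L : End F V) :
    (∀ x : Fin n → m → F, (ofML b σ Ψ).ev (fun r => tm b L *ᵥ x r) = (ofML b σ Ψ).ev x) ↔
      ∀ v : Fin n → V, (Ψ fun r => A r (L (v r))) = Ψ fun r => A r (v r) := by
  simp only [ev_ofML b σ Ψ A hA, vc_mulVec]
  refine ⟨fun h v => ?_, fun h x => h fun r => vc b (x r)⟩
  obtain ⟨x, rfl⟩ := vc_surj b v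
  exact h x

theorem ann_ofML (b : Basis m F V) {n : ℕ} (σ : Fin n → F →+* F)
    (Ψ : MultilinearMap F (fun _ : Fin n => V) F) (A : Fin n → V → V)
    (hA : ∀ r x, A r (vc b x) = vc b fun i => σ r (x i)) (L : End F V) :
    (∀ x : Fin n → m → F,
        ∑ r : Fin n, (ofML b σ Ψ).ev (Function.update x r (tm b L *ᵥ x r)) = 0) ↔
      ∀ v : Fin n → V, ∑ r, (Ψ fun r' => A r' (Function.update v r (L (v r)) r')) = 0 := by
  have e : ∀ (x : Fin n → m → F) (r : Fin n),
      (ofML b σ Ψ).ev (Function.update x r (tm b L *ᵥ x r)) =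
        Ψ fun r' => A r' (Function.update (fun r => vc b (x r)) r (L (vc b (x r))) r') := by
    intro x r
    rw [ev_ofML b σ Ψ A hA]
    congr 1
    funext r'
    rw [← vc_mulVec, Function.apply_update (fun _ => vc b) x r _ r']
  simp only [e]
  refine ⟨fun h v => ?_, fun h x => h fun r => vc b (x r)⟩
  obtain ⟨x, rfl⟩ := vc_surj b v
  exact h x

theorem bij_of_mon (b : Basis m F V) (S : SysF F m) {L : End F V} (h : tm b L ∈ S.mon) :
    Function.Bijective L := by
  have := Module.Finite.of_basis b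
  have hi : Function.Injective L := by
    rw [← LinearMap.ker_eq_bot, LinearMap.ker_eq_bot']
    intro v hv
    obtain ⟨x, rfl⟩ := b.equivFun.symm.surjective v
    have h0 : tm b L *ᵥ x = 0 := b.equivFun.symm.injective (by
      rw [map_zero]
      exact (vc_mulVec b L x).trans hv)
    have h1 : (fun i => S.σ 0 (x i)) ᵥ* S.B = 0 := by
      funext j
      have h2 := h _ S.memB ![x, Pi.single j 1]
      simp only [TnF.ev] at h2
      rw [← (piFinTwoEquiv fun _ => m).symm.sum_comp, ← (piFinTwoEquiv fun _ => m).symm.sum_comp,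
        Fintype.sum_prod_type, Fintype.sum_prod_type] at h2
      simp only [Fin.prod_univ_two, piFinTwoEquiv, Equiv.coe_fn_symm_mk, Fin.cons_zero,
        Fin.cons_one, Matrix.cons_val_zero, Matrix.cons_val_one, h0, Pi.zero_apply, map_zero,
        zero_mul, mul_zero, Finset.sum_const_zero] at h2
      rw [Pi.zero_apply, h2, vecMul, dotProduct]
      refine Finset.sum_congr rfl fun i _ => ?_
      rw [Finset.sum_eq_single j]
      · simp [mul_comm]
      · intro k _ hk
        simp [hk]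
      · simp
    have h3 := eq_zero_of_vecMul_eq_zero S.detB h1
    have h4 : x = 0 := funext fun i => (map_eq_zero (S.σ 0)).1 (congrFun h3 i)
    rw [h4, map_zero]
  exact ⟨hi, LinearMap.injective_iff_surjective.1 hi⟩

theorem rep3_of [TopologicalSpace F] [IsTopologicalRing F] (b : Basis m F V)
    (φ : SpecialLinearGroup (Fin 3) F →* End F V)
    (el : ∀ i j hij, ∃ E : End F V, ∀ t, φ (el3 i j hij t) = 1 + t • E)
    (dg : ∃ P Q R : End F V, P + Q + R = 1 ∧ ∀ (w : F) (hw : w ≠ 0) x,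
      φ (dg3 w hw) (P x) = w • P x ∧ φ (dg3 w hw) (Q x) = Q x ∧ φ (dg3 w hw) (R x) = w⁻¹ • R x) :
    Rep3 ((tm b : End F V →* Matrix m m F).comp φ) := by
  refine ⟨fun i j hij => ?_, fun w hw => ⟨{1, 0, -1}, fun v => ?_⟩⟩
  · obtain ⟨E, hE⟩ := el i j hij
    have e : (fun t => ((tm b : End F V →* Matrix m m F).comp φ) (el3 i j hij t)) =
        fun t : F => (1 : Matrix m m F) + t • tm b E := by
      funext t
      change tm b (φ (el3 i j hij t)) = _
      rw [hE, map_add, map_one, map_smul]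
    rw [e]
    fun_prop
  · obtain ⟨P, Q, R, h1, h2⟩ := dg
    refine ⟨fun k => if k = 1 then tm b P *ᵥ v else if k = 0 then tm b Q *ᵥ v else
      if k = -1 then tm b R *ᵥ v else 0, ?_, fun k => ?_⟩
    · rw [Finset.sum_insert (by decide), Finset.sum_insert (by decide), Finset.sum_singleton]
      simp only [if_true, if_neg (show (0 : ℤ) ≠ 1 by decide), if_neg (show (-1 : ℤ) ≠ 1 by decide),
        if_neg (show (-1 : ℤ) ≠ 0 by decide)]
      rw [← add_mulVec, ← add_mulVec, ← map_add, ← map_add, ← add_assoc, h1, map_one, one_mulVec]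
    · change tm b (φ (dg3 w hw)) *ᵥ _ = _
      refine b.equivFun.symm.injective ?_
      rw [map_smul]
      change vc b _ = _ • vc b _
      rw [vc_mulVec]
      obtain ⟨a1, a2, a3⟩ := h2 w hw (vc b v)
      beta_reduce
      split_ifs with k1 k2 k3
      · rw [vc_mulVec, a1, k1, zpow_one]
      · rw [vc_mulVec, a2, k2, zpow_zero, one_smul]
      · rw [vc_mulVec, a3, k3, _root_.zpow_neg, zpow_one]
      · simp

end ml

theorem simp_of_sys {F V m : Type} [Field F] [NumberField F] [AddCommGroup V] [Module F V]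
    [Fintype m] [DecidableEq m] (b : Basis m F V) (S : SysF F m) {P : (V → V) → Prop}
    (hlin : ∀ f : grp P, ∃ L : End F V, ⇑L = f.1 ∧ tm b L ∈ S.mon)
    (hconv : ∀ L : End F V, Function.Bijective L → tm b L ∈ S.mon → P L)
    (ha : Ani P) (h : NoIndex P) (hS : S.Stable)
    (hc : ∀ g : Matrix m m F, (∀ X ∈ S.lie, g * X = X * g) → ∃ c : F, g = c • 1)
    (p : Nat.Primes) (h5 : 5 ≤ (p : ℕ)) (hs : Splits F ℚ_[(p : ℕ)])
    (hP : ∀ τ : F →+* ℚ_[(p : ℕ)], S.Prime τ)
    (ρ : (F →+* ℚ_[(p : ℕ)]) → SpecialLinearGroup (Fin 3) ℚ_[(p : ℕ)] →* Matrix m m ℚ_[(p : ℕ)])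
    (hρ : S.Pres fun τ g => ρ τ g) (h3 : ∀ τ, Rep3 (ρ τ))
    (hn : ∀ τ (w : ℚ_[(p : ℕ)]) (hw : w ≠ 0), ‖w‖ < 1 → ∃ X ∈ S.lieE τ,
      ρ τ (dg3 w hw) * X ≠ X * ρ τ (dg3 w hw)) : Simp P := by
  classical
  choose L hL hm using hlin
  have hL' : ∀ f x, L f x = f.1 x := fun f x => congrFun (hL f) x
  let ι0 : grp P →* End F V :=
    { toFun := L
      map_one' := LinearMap.ext fun x => hL' 1 x
      map_mul' := fun f g => LinearMap.ext fun x => by
        rw [End.mul_apply, hL', hL', hL']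
        rfl }
  let ι : grp P →* Matrix m m F := (tm b : End F V →* Matrix m m F).comp ι0
  have hι : ∀ f, ι f = tm b (L f) := fun f => rfl
  have hinj : Function.Injective ι := fun f g hfg => by
    have h1 : L f = L g := (tm b).injective hfg
    exact Subtype.ext (Equiv.ext fun x => by rw [← hL', ← hL', h1])
  intro N hN hnc
  refine h N (SysF.main S ι hinj hm ⟨{1}, fun y hy => ?_⟩ (fun g hg => ha g ?_) hS ∅
    (finBasis ℚ F) (fun H hH => ⟨1, one_pos, fun g _ => ?_⟩) p (Finset.notMem_empty p) h5 hs hP ρ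
    hρ h3 hn N ?_).index_ne_zero
  · obtain ⟨M, rfl⟩ := (tm b).surjective y
    have hb := bij_of_mon b S hy
    refine ⟨1, Finset.mem_singleton_self _,
      ⟨Equiv.ofBijective M hb, Subgroup.subset_closure (hconv M hb hy)⟩, ?_⟩
    rw [one_mul, hι]
    congr 1
    exact LinearMap.ext fun x => by rw [hL']; rfl
  · obtain ⟨k, hk⟩ := hg
    refine ⟨k, fun x => ?_⟩
    have h1 : (L g - 1) ^ k = 0 := (tm b).injective (by
      rw [map_pow, map_sub, map_one, map_zero]
      exact hk)
    have h2 : (fun y => g.1 y - y) = ⇑(L g - 1) := funext fun y => by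
      rw [LinearMap.sub_apply, hL']
      rfl
    rw [h2, ← End.pow_apply, h1, LinearMap.zero_apply]
  · rw [h H hH.index_ne_zero]
    exact Subgroup.mem_top g
  · by_contra hx
    push Not at hx
    refine hnc fun x hxN => Subgroup.mem_center_iff.2 fun g => hinj ?_
    obtain ⟨c, hc'⟩ := hc _ (hx x hxN)
    rw [map_mul, map_mul, hc', mul_smul_comm, smul_mul_assoc, mul_one, one_mul]

end Vale.Agent.P011Z.Mod
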